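import Vale.Agent.Results.P192.WobblingGroups
import Vale.Agent.P192.H593.Narrow
import Vale.Agent.P192.H593.Diam

namespace Vale.Agent.Results.P192.GrowthGap

open Vale.Agent.P192.H593 Asymptotics

theorem result (G : Type) [Group G] [Group.IsFinitelyPresented G] (hG : IsMulTorsion G) :
    (∀ S : Set G, Subgroup.closure S = ⊤ → ∀ k : ℕ,
      ∃ N : Subgroup G, N.Normal ∧ N.FiniteIndex ∧
        ∀ (X : Type) [MulAction G X] [MulAction.IsPretransitive G X]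
          (V : Type) (T : SimpleGraph V) (B : V → Set X), T.IsTree →
          (∀ t, (B t).encard ≤ k) →
          (∀ x : X, (T.induce {t | x ∈ B t}).Connected) →
          (∀ s ∈ S, ∀ x : X, ∃ t, x ∈ B t ∧ s • x ∈ B t) →
          ∀ g ∈ N, ∀ x : X, g • x = x) ∧
    (∀ S : Set G, Subgroup.closure S = ⊤ → ∀ k : ℕ,
      ∃ N : Subgroup G, N.Normal ∧ N.FiniteIndex ∧
        ∀ (X : Type) [MulAction G X] (F : Set (Set X)),
          (∀ x : X, MulAction.orbit G x ∈ F) →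
          (∀ C ∈ F, {x | x ∈ C ∧ ∃ s ∈ S, s • x ∉ C ∨ s⁻¹ • x ∉ C}.encard ≤ k) →
          (∀ C ∈ F, (k : ℕ∞) < C.encard →
            ∃ P ⊆ F, P.encard ≤ k ∧ (∀ D ∈ P, D ⊂ C) ∧ C ⊆ ⋃₀ P) →
          ∀ g ∈ N, ∀ x : X, g • x = x) ∧
    (∀ S : Set G, Subgroup.closure S = ⊤ → ∀ c : ℕ, ∃ n₀ : ℕ,
      ∀ (X : Type) [MulAction G X] [MulAction.IsPretransitive G X] (x : X), ∀ n ≥ n₀,
        {y | ∃ w : List G, (∀ s ∈ w, s ∈ S ∨ s⁻¹ ∈ S) ∧ w.length ≤ n ∧ w.prod • x = y} =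
          Set.univ ∨
        ((c * n : ℕ) : ℕ∞) ≤
          {y | ∃ w : List G, (∀ s ∈ w, s ∈ S ∨ s⁻¹ ∈ S) ∧ w.length ≤ n ∧
            w.prod • x = y}.encard) ∧
    (∀ S : Set G, Subgroup.closure S = ⊤ → ∀ k : ℕ, ∃ L : ℕ,
      ∀ (X : Type) [MulAction G X] [MulAction.IsPretransitive G X] (Q : Set (Set X)),
        IsChain (· ⊆ ·) Q →
        (∀ C ∈ Q, {x | x ∈ C ∧ ∃ s ∈ S, s • x ∉ C ∨ s⁻¹ • x ∉ C}.encard ≤ k) →
        Q.encard ≤ L) ∧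
    (∀ (A : Type) [Finite A] (ρ : G →* Equiv.Perm (List A)),
      (∀ (g : G) (v : List A), (ρ g v).length = v.length) →
      (∀ g : G, ∃ M : ℕ, ∀ n : ℕ,
        {v : List A | v.length = n ∧ ∃ w : List A, ρ g (v ++ w) ≠ ρ g v ++ w}.encard ≤ M) →
      Finite ρ.range) ∧
    (∀ ρ : G →* Equiv.Perm ℤ, (∀ g : G, ∃ c : ℕ, ∀ n : ℤ, |ρ g n - n| ≤ c) →
      Finite ρ.range) ∧
    (∀ S : Set G, Subgroup.closure S = ⊤ → ∀ k Δ c : ℕ,
      ∃ N : Subgroup G, N.Normal ∧ N.FiniteIndex ∧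
        ∀ (X : Type) (Γ : SimpleGraph X) (V : Type) (T : SimpleGraph V) (B : V → Set X), T.IsTree →
          (∀ t, (B t).encard ≤ k) →
          (∀ x : X, (T.induce {t | x ∈ B t}).Connected) →
          (∀ x y : X, Γ.Adj x y → ∃ t, x ∈ B t ∧ y ∈ B t) →
          (∀ x : X, (Γ.neighborSet x).encard ≤ Δ) →
          ∀ ρ : G →* Equiv.Perm X, (∀ s ∈ S, ∀ x : X, Γ.edist x (ρ s x) ≤ c) →
            ∀ g ∈ N, ρ g = 1) ∧
    (∀ (X : Type) (Γ : SimpleGraph X) (V : Type) (T : SimpleGraph V) (B : V → Set X) (k Δ : ℕ),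
      T.IsTree →
      (∀ t, (B t).encard ≤ k) →
      (∀ x : X, (T.induce {t | x ∈ B t}).Connected) →
      (∀ x y : X, Γ.Adj x y → ∃ t, x ∈ B t ∧ y ∈ B t) →
      (∀ x : X, (Γ.neighborSet x).encard ≤ Δ) →
      ∀ ρ : G →* Equiv.Perm X, (∀ g : G, ∃ c : ℕ, ∀ x : X, Γ.edist x (ρ g x) ≤ c) →
        Finite ρ.range) ∧
    (∀ (X : Type) (T : SimpleGraph X) (Δ : ℕ), T.IsTree →
      (∀ x : X, (T.neighborSet x).encard ≤ Δ) →
      ∀ ρ : G →* Equiv.Perm X, (∀ g : G, ∃ c : ℕ, ∀ x : X, T.edist x (ρ g x) ≤ c) →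
        Finite ρ.range) ∧
    (∀ (F : Type) [Group F] (A : Set F), A.Finite → Subgroup.closure A = ⊤ →
      ∀ (V : Type) (T : SimpleGraph V) (B : V → Set F) (k : ℕ), T.IsTree →
      (∀ t, (B t).encard ≤ k) →
      (∀ x : F, (T.induce {t | x ∈ B t}).Connected) →
      (∀ a ∈ A, ∀ x : F, ∃ t, x ∈ B t ∧ a * x ∈ B t) →
      ∀ (Y : Type) [MulAction F Y], (∀ (f : F) (y : Y), f • y = y → f = 1) →
      ∀ ρ : G →* Equiv.Perm Y,
        (∀ g : G, ∃ E : Set F, E.Finite ∧ ∀ y : Y, ∃ f ∈ E, ρ g y = f • y) →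
        Finite ρ.range) ∧
    (∀ (α : Type) [Finite α] (Y : Type) [MulAction (FreeGroup α) Y],
      (∀ (f : FreeGroup α) (y : Y), f • y = y → f = 1) →
      ∀ ρ : G →* Equiv.Perm Y,
        (∀ g : G, ∃ E : Set (FreeGroup α), E.Finite ∧ ∀ y : Y, ∃ f ∈ E, ρ g y = f • y) →
        Finite ρ.range) ∧
    (∀ S : Set G, Subgroup.closure S = ⊤ → ∃ m : ℕ,
      ∀ (X : Type) [MulAction G X] [MulAction.IsPretransitive G X] (C : ℕ → Set X) (L k : ℕ),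
        (C 0).Nonempty → C L ≠ Set.univ →
        (∀ i < L, ∀ x ∈ C i, x ∈ C (i + 1) ∧
          ∀ s ∈ S, s • x ∈ C (i + 1) ∧ s⁻¹ • x ∈ C (i + 1)) →
        {i | i ≤ L ∧ {x | x ∈ C i ∧ ∃ s ∈ S, s • x ∉ C i ∨ s⁻¹ • x ∉ C i}.encard ≤ k}.encard ≤
          (((k + 2) ^ (m * k) : ℕ) : ℕ∞)) ∧
    (∀ S : Set G, Subgroup.closure S = ⊤ → ∃ c : ℝ, 0 < c ∧
      ∀ (X : Type) [MulAction G X] [MulAction.IsPretransitive G X] (Z : Set X), Z.Nonempty →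
        ∀ n : ℕ, 3 ≤ n → nhd S Z n = Set.univ ∨
          ∀ N : ℕ, (nhd S Z n \ Z).encard ≤ N →
            c * (n * Real.log n / Real.log (Real.log n)) ≤ N) ∧
    (∀ S : Set G, Subgroup.closure S = ⊤ → ∃ C : ℝ,
      ∀ (X : Type) [MulAction G X] [MulAction.IsPretransitive G X], 3 ≤ Nat.card X →
        ∀ x y : X, ∃ w : List G, (∀ s ∈ w, s ∈ S ∨ s⁻¹ ∈ S) ∧ w.prod • x = y ∧
          w.length ≤ C * (Nat.card X * Real.log (Real.log (Nat.card X)) /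
            Real.log (Nat.card X))) ∧
    (∀ (X : Type) (Γ : SimpleGraph X) (b : ℕ → ℕ),
      (∀ (x : X) (n : ℕ), {y | Γ.edist x y ≤ n}.encard ≤ b n) →
      (∀ ε : ℝ, 0 < ε → ∃ᶠ n : ℕ in Filter.atTop,
        b n ≤ ε * (n * Real.log n / Real.log (Real.log n))) →
      ∀ ρ : G →* Equiv.Perm X, (∀ g : G, ∃ c : ℕ, ∀ x : X, Γ.edist x (ρ g x) ≤ c) →
        Finite ρ.range) ∧
    (∀ ρ : G →* Equiv.Perm ℤ,
      (∀ g : G, (fun n : ℤ => ((ρ g n - n : ℤ) : ℝ)) =o[Filter.cofinite]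
        fun n : ℤ => Real.log |(n : ℝ)| / Real.log (Real.log |(n : ℝ)|)) →
      ∀ x : ℤ, (Set.range fun g : G => ρ g x).Finite) ∧
    (∀ (X : Type) (Γ : SimpleGraph X) (Δ : ℕ), (∀ x : X, (Γ.neighborSet x).encard ≤ Δ) →
      ∀ (F : ℕ → Set X) (b : ℕ → ℕ),
      (∀ i, ∀ x ∈ F i, x ∈ F (i + 1) ∧ ∀ y, Γ.Adj x y → y ∈ F (i + 1)) →
      (∀ i, {x | x ∈ F i ∧ ∃ y, Γ.Adj x y ∧ y ∉ F i}.encard ≤ b i) →
      ((fun i : ℕ => (b i : ℝ)) =o[Filter.atTop]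
        fun i : ℕ => Real.log i / Real.log (Real.log i)) →
      ∀ ρ : G →* Equiv.Perm X, (∀ g : G, ∃ c : ℕ, ∀ x : X, Γ.edist x (ρ g x) ≤ c) →
        ∀ x : X, (∃ i, x ∈ F i) → ∃ j, ∀ g : G, ρ g x ∈ F j) := by
  obtain ⟨h1, h2, h3, h4, h5, h6, h7, h8, h9, h10, h11⟩ :=
    Vale.Agent.Results.P192.WobblingGroups.result G hG
  refine ⟨h1, h2, h3, h4, h5, h6, h7, h8, h9, h10, h11, ?_, ?_, ?_, ?_, ?_, ?_⟩
  · intro S hS
    exact cuts.{0, 0} G hG S hS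
  · intro S hS
    obtain ⟨c, hc, h⟩ := growth.{0, 0} G hG S hS
    exact ⟨c, hc, fun X _ _ Z hZ n hn => or_iff_not_imp_left.2 (h X Z hZ n hn)⟩
  · intro S hS
    exact diam.{0, 0} G hG S hS
  · intro X Γ b hb ho ρ hρ
    exact wobbling G hG X Γ b hb ho ρ hρ
  · intro ρ hρ x
    exact displacement G hG ρ hρ x
  · intro X Γ Δ hΔ F b hF hFb hb ρ hρ x hx
    exact narrow G hG X Γ Δ hΔ F b hF hFb hb ρ hρ x hx

end Vale.Agent.Results.P192.GrowthGap
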