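import Vale.Agent.P192.H630.Free

namespace Vale.Agent.Results.P192.WobblingGroups

theorem result (G : Type) [Group G] [Group.IsFinitelyPresented G] (hG : IsMulTorsion G) :
    (∀ S : Set G, Subgroup.closure S = ⊤ → ∀ k : ℕ,
      ∃ N : Subgroup G, N.Normal ∧ N.FiniteIndex ∧
        ∀ (X : Type) [MulAction G X] [MulAction.IsPretransitive G X]
          (V : Type) (T : SimpleGraph V) (B : V → Set X), T.IsTree →
          (∀ t, (B t).encard ≤ k) →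
          (∀ x : X, (T.induce {t | x ∈ B t}).Connected) →
          (∀ s ∈ S, ∀ x : X, ∃ t, x ∈ B t ∧ s • x ∈ B t) →
          ∀ g ∈ N, ∀ x : X, g • x = x) ∧
    (∀ S : Set G, Subgroup.closure S = ⊤ → ∀ k : ℕ,
      ∃ N : Subgroup G, N.Normal ∧ N.FiniteIndex ∧
        ∀ (X : Type) [MulAction G X] (F : Set (Set X)),
          (∀ x : X, MulAction.orbit G x ∈ F) →
          (∀ C ∈ F, {x | x ∈ C ∧ ∃ s ∈ S, s • x ∉ C ∨ s⁻¹ • x ∉ C}.encard ≤ k) →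
          (∀ C ∈ F, (k : ℕ∞) < C.encard →
            ∃ P ⊆ F, P.encard ≤ k ∧ (∀ D ∈ P, D ⊂ C) ∧ C ⊆ ⋃₀ P) →
          ∀ g ∈ N, ∀ x : X, g • x = x) ∧
    (∀ S : Set G, Subgroup.closure S = ⊤ → ∀ c : ℕ, ∃ n₀ : ℕ,
      ∀ (X : Type) [MulAction G X] [MulAction.IsPretransitive G X] (x : X), ∀ n ≥ n₀,
        {y | ∃ w : List G, (∀ s ∈ w, s ∈ S ∨ s⁻¹ ∈ S) ∧ w.length ≤ n ∧ w.prod • x = y} =
          Set.univ ∨
        ((c * n : ℕ) : ℕ∞) ≤
          {y | ∃ w : List G, (∀ s ∈ w, s ∈ S ∨ s⁻¹ ∈ S) ∧ w.length ≤ n ∧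
            w.prod • x = y}.encard) ∧
    (∀ S : Set G, Subgroup.closure S = ⊤ → ∀ k : ℕ, ∃ L : ℕ,
      ∀ (X : Type) [MulAction G X] [MulAction.IsPretransitive G X] (Q : Set (Set X)),
        IsChain (· ⊆ ·) Q →
        (∀ C ∈ Q, {x | x ∈ C ∧ ∃ s ∈ S, s • x ∉ C ∨ s⁻¹ • x ∉ C}.encard ≤ k) →
        Q.encard ≤ L) ∧
    (∀ (A : Type) [Finite A] (ρ : G →* Equiv.Perm (List A)),
      (∀ (g : G) (v : List A), (ρ g v).length = v.length) →
      (∀ g : G, ∃ M : ℕ, ∀ n : ℕ,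
        {v : List A | v.length = n ∧ ∃ w : List A, ρ g (v ++ w) ≠ ρ g v ++ w}.encard ≤ M) →
      Finite ρ.range) ∧
    (∀ ρ : G →* Equiv.Perm ℤ, (∀ g : G, ∃ c : ℕ, ∀ n : ℤ, |ρ g n - n| ≤ c) →
      Finite ρ.range) ∧
    (∀ S : Set G, Subgroup.closure S = ⊤ → ∀ k Δ c : ℕ,
      ∃ N : Subgroup G, N.Normal ∧ N.FiniteIndex ∧
        ∀ (X : Type) (Γ : SimpleGraph X) (V : Type) (T : SimpleGraph V) (B : V → Set X), T.IsTree →
          (∀ t, (B t).encard ≤ k) →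
          (∀ x : X, (T.induce {t | x ∈ B t}).Connected) →
          (∀ x y : X, Γ.Adj x y → ∃ t, x ∈ B t ∧ y ∈ B t) →
          (∀ x : X, (Γ.neighborSet x).encard ≤ Δ) →
          ∀ ρ : G →* Equiv.Perm X, (∀ s ∈ S, ∀ x : X, Γ.edist x (ρ s x) ≤ c) →
            ∀ g ∈ N, ρ g = 1) ∧
    (∀ (X : Type) (Γ : SimpleGraph X) (V : Type) (T : SimpleGraph V) (B : V → Set X) (k Δ : ℕ),
      T.IsTree →
      (∀ t, (B t).encard ≤ k) →
      (∀ x : X, (T.induce {t | x ∈ B t}).Connected) →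
      (∀ x y : X, Γ.Adj x y → ∃ t, x ∈ B t ∧ y ∈ B t) →
      (∀ x : X, (Γ.neighborSet x).encard ≤ Δ) →
      ∀ ρ : G →* Equiv.Perm X, (∀ g : G, ∃ c : ℕ, ∀ x : X, Γ.edist x (ρ g x) ≤ c) →
        Finite ρ.range) ∧
    (∀ (X : Type) (T : SimpleGraph X) (Δ : ℕ), T.IsTree →
      (∀ x : X, (T.neighborSet x).encard ≤ Δ) →
      ∀ ρ : G →* Equiv.Perm X, (∀ g : G, ∃ c : ℕ, ∀ x : X, T.edist x (ρ g x) ≤ c) →
        Finite ρ.range) ∧
    (∀ (F : Type) [Group F] (A : Set F), A.Finite → Subgroup.closure A = ⊤ →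
      ∀ (V : Type) (T : SimpleGraph V) (B : V → Set F) (k : ℕ), T.IsTree →
      (∀ t, (B t).encard ≤ k) →
      (∀ x : F, (T.induce {t | x ∈ B t}).Connected) →
      (∀ a ∈ A, ∀ x : F, ∃ t, x ∈ B t ∧ a * x ∈ B t) →
      ∀ (Y : Type) [MulAction F Y], (∀ (f : F) (y : Y), f • y = y → f = 1) →
      ∀ ρ : G →* Equiv.Perm Y,
        (∀ g : G, ∃ E : Set F, E.Finite ∧ ∀ y : Y, ∃ f ∈ E, ρ g y = f • y) →
        Finite ρ.range) ∧
    (∀ (α : Type) [Finite α] (Y : Type) [MulAction (FreeGroup α) Y],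
      (∀ (f : FreeGroup α) (y : Y), f • y = y → f = 1) →
      ∀ ρ : G →* Equiv.Perm Y,
        (∀ g : G, ∃ E : Set (FreeGroup α), E.Finite ∧ ∀ y : Y, ∃ f ∈ E, ρ g y = f • y) →
        Finite ρ.range) := by
  refine ⟨?_, ?_, ?_, ?_, ?_, ?_, ?_, ?_, ?_, ?_, ?_⟩
  · intro S hS k
    exact Vale.Agent.P192.uniform_treewidth.{0, 0, 0} G hG S hS k
  · intro S hS k
    exact Vale.Agent.P192.uniform_decomposable.{0, 0} G hG S hS k
  · intro S hS c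
    exact Vale.Agent.P192.growth_gap.{0, 0} G hG S hS c
  · intro S hS k
    exact Vale.Agent.P192.chain_bound G hG S hS k
  · intro A _ ρ hlen hb
    exact Vale.Agent.P192.activity_image A G hG ρ hlen hb
  · intro ρ hb
    exact Vale.Agent.P192.displacement_image G hG ρ hb
  · intro S hS k Δ c
    obtain ⟨N, h1, h2, h3⟩ := Vale.Agent.P192.H630.uniform_wobbling.{0, 0, 0} G hG S hS k Δ c
    exact ⟨N, h1, h2, fun X Γ V T B hT hB hc hv hΔ ρ hρ g hg => h3 X Γ V T B hT hB hc hv hΔ ρ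
      (fun s hs x => Vale.Agent.P192.H630.walk_of_edist (hρ s hs x)) g hg⟩
  · intro X Γ V T B k Δ hT hB hc hv hΔ ρ hρ
    refine Vale.Agent.P192.H630.wobbling_image G hG X Γ Δ hΔ V T B k hT hB hc hv ρ fun g => ?_
    obtain ⟨c, h⟩ := hρ g
    exact ⟨c, fun x => Vale.Agent.P192.H630.walk_of_edist (h x)⟩
  · intro X T Δ hT hΔ ρ hρ
    refine Vale.Agent.P192.H630.wobbling_tree G hG X T hT Δ hΔ ρ fun g => ?_
    obtain ⟨c, h⟩ := hρ g
    exact ⟨c, fun x => Vale.Agent.P192.H630.walk_of_edist (h x)⟩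
  · intro F _ A hA hgen V T B k hT hB hc hv Y _ hfree ρ hρ
    refine Vale.Agent.P192.H630.free_action_image G hG F A hA hgen V T B k hT hB hc ?_ Y hfree ρ hρ
    rintro x y ⟨-, a, ha, h | h⟩
    · rw [h]; exact hv a ha x
    · obtain ⟨t, h1, h2⟩ := hv a ha y
      rw [h]; exact ⟨t, h2, h1⟩
  · intro α _ Y _ hfree ρ hρ
    exact Vale.Agent.P192.H630.free_group_image G hG α Y hfree ρ hρ

end Vale.Agent.Results.P192.WobblingGroups
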